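import Vale.Agent.P017.H335.Sym

/-!
# The product formula and the system of Hilbert symbols of `ℚ`
-/

namespace Vale.Agent.P017.H335

open Vale.Agent.P017.L2

/-- the real symbol -/
noncomputable def hR : HS ℝ where
  h a b := if a < 0 ∧ b < 0 then -1 else 1
  pm a b _ _ := by
    by_cases h : a < 0 ∧ b < 0
    · right; rw [if_pos h]
    · left; rw [if_neg h]
  symm a b := by simp only [and_comm]
  mul a b c ha hb hc := by
    rcases lt_or_gt_of_ne hc with h3 | h3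
    · rcases lt_or_gt_of_ne ha with h1 | h1 <;> rcases lt_or_gt_of_ne hb with h2 | h2
      · rw [if_neg (fun h => absurd h.1 (not_lt.2 (mul_pos_of_neg_of_neg h1 h2).le)),
          if_pos ⟨h1, h3⟩, if_pos ⟨h2, h3⟩]
        norm_num
      · rw [if_pos ⟨mul_neg_of_neg_of_pos h1 h2, h3⟩,
          if_pos ⟨h1, h3⟩, if_neg (fun h => absurd h.1 (not_lt.2 h2.le))]
        norm_num
      · rw [if_pos ⟨mul_neg_of_pos_of_neg h1 h2, h3⟩,
          if_neg (fun h => absurd h.1 (not_lt.2 h1.le)), if_pos ⟨h2, h3⟩]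
        norm_num
      · rw [if_neg (fun h => absurd h.1 (not_lt.2 (mul_pos h1 h2).le)),
          if_neg (fun h => absurd h.1 (not_lt.2 h1.le)),
          if_neg (fun h => absurd h.1 (not_lt.2 h2.le))]
        norm_num
    · rw [if_neg (fun h => absurd h.2 (not_lt.2 h3.le)),
        if_neg (fun h => absurd h.2 (not_lt.2 h3.le)),
        if_neg (fun h => absurd h.2 (not_lt.2 h3.le))]
      norm_num
  norm a b x y _ _ e := by
    rw [if_neg]
    rintro ⟨h1, h2⟩
    nlinarith [sq_nonneg x, sq_nonneg y, mul_nonneg (neg_nonneg.2 h2.le) (sq_nonneg y)]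

/-- the local value at `p` for rational arguments -/
noncomputable def hp (p : ℕ) (a b : ℚ) : ℤ :=
  if hp : p.Prime then haveI := Fact.mk hp; (hQ p).h (a : ℚ_[p]) (b : ℚ_[p]) else 1

/-- the real value for rational arguments -/
noncomputable def hr (a b : ℚ) : ℤ := hR.h (a : ℝ) (b : ℝ)

/-- the product formula for `a, b` -/
def PF (a b : ℚ) : Prop :=
  ∃ S₀ : Finset ℕ, ∀ S : Finset ℕ, S₀ ⊆ S → (∏ p ∈ S, hp p a b) * hr a b = 1

lemma hp_symm (p : ℕ) (a b : ℚ) : hp p a b = hp p b a := by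
  unfold hp
  split_ifs with h0
  · have := Fact.mk h0
    exact (hQ p).symm _ _
  · rfl

lemma hr_symm (a b : ℚ) : hr a b = hr b a := hR.symm _ _

lemma hp_mul (p : ℕ) {a b c : ℚ} (ha : a ≠ 0) (hb : b ≠ 0) (hc : c ≠ 0) :
    hp p (a * b) c = hp p a c * hp p b c := by
  unfold hp
  split_ifs with h
  · have := Fact.mk h
    have := (hQ p).mul (a : ℚ_[p]) b c (by exact_mod_cast ha) (by exact_mod_cast hb)
      (by exact_mod_cast hc)
    push_cast
    exact this
  · rfl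

lemma hr_mul {a b c : ℚ} (ha : a ≠ 0) (hb : b ≠ 0) (hc : c ≠ 0) :
    hr (a * b) c = hr a c * hr b c := by
  have := hR.mul (a : ℝ) b c (by exact_mod_cast ha) (by exact_mod_cast hb)
      (by exact_mod_cast hc)
  unfold hr
  push_cast
  exact this

lemma PF_symm {a b : ℚ} (h : PF a b) : PF b a := by
  obtain ⟨S₀, h⟩ := h
  refine ⟨S₀, fun S hS => ?_⟩
  rw [hr_symm, Finset.prod_congr rfl (fun p _ => hp_symm p b a)]
  exact h S hS

lemma PF_mul {a b c : ℚ} (ha : a ≠ 0) (hb : b ≠ 0) (hc : c ≠ 0) (h1 : PF a c) (h2 : PF b c) :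
    PF (a * b) c := by
  obtain ⟨S₁, h1⟩ := h1
  obtain ⟨S₂, h2⟩ := h2
  refine ⟨S₁ ∪ S₂, fun S hS => ?_⟩
  rw [hr_mul ha hb hc, Finset.prod_congr rfl (fun p _ => hp_mul p ha hb hc),
    Finset.prod_mul_distrib]
  have e1 := h1 S (Finset.subset_union_left.trans hS)
  have e2 := h2 S (Finset.subset_union_right.trans hS)
  calc _ = ((∏ p ∈ S, hp p a c) * hr a c) * ((∏ p ∈ S, hp p b c) * hr b c) := by ring
    _ = 1 := by rw [e1, e2, one_mul]

lemma hr_pm {a b : ℚ} (ha : a ≠ 0) (hb : b ≠ 0) : hr a b * hr a b = 1 := by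
  rcases hR.pm (a : ℝ) b (by exact_mod_cast ha) (by exact_mod_cast hb) with h | h <;>
    simp [hr, h]

lemma hp_pm (p : ℕ) {a b : ℚ} (ha : a ≠ 0) (hb : b ≠ 0) : hp p a b * hp p a b = 1 := by
  unfold hp
  split_ifs with h0
  · have := Fact.mk h0
    rcases (hQ p).pm (a : ℚ_[p]) b (by exact_mod_cast ha) (by exact_mod_cast hb) with h | h <;>
      simp [h]
  · rfl

lemma PF_sq {a c : ℚ} (ha : a ≠ 0) (hc : c ≠ 0) : PF (a * a) c := by
  refine ⟨∅, fun S _ => ?_⟩
  rw [hr_mul ha ha hc, Finset.prod_congr rfl (fun p _ => hp_mul p ha ha hc),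
    Finset.prod_congr rfl (fun p _ => hp_pm p ha hc), hr_pm ha hc]
  simp

lemma PF_left {b : ℚ} (hb : b ≠ 0) (h1 : PF (-1) b) (h2 : ∀ q : ℕ, q.Prime → PF q b) (a : ℚ)
    (ha : a ≠ 0) : PF a b := by
  have hnat : ∀ n : ℕ, n ≠ 0 → PF n b := by
    intro n
    induction n using Nat.recOnMul with
    | zero => intro h; exact absurd rfl h
    | one =>
      intro _
      have := PF_sq (a := 1) one_ne_zero hb
      simpa using this
    | prime p hp => intro _; exact h2 p hp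
    | mul m n hm hn =>
      intro h
      have h1 : m ≠ 0 := fun h0 => h (by rw [h0, zero_mul])
      have h2 : n ≠ 0 := fun h0 => h (by rw [h0, mul_zero])
      push_cast
      exact PF_mul (by exact_mod_cast h1) (by exact_mod_cast h2) hb (hm h1) (hn h2)
  have hint : ∀ n : ℤ, n ≠ 0 → PF n b := by
    intro n hn
    rcases lt_or_gt_of_ne hn with h | h
    · have e : (n : ℚ) = (-1) * ((n.natAbs : ℕ) : ℚ) := by
        rw [Nat.cast_natAbs, abs_of_neg h]
        push_cast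
        ring
      rw [e]
      refine PF_mul (by norm_num) ?_ hb h1 (hnat _ (by omega))
      exact_mod_cast (by omega : n.natAbs ≠ 0)
    · have e : (n : ℚ) = ((n.natAbs : ℕ) : ℚ) := by
        rw [Nat.cast_natAbs, abs_of_pos h]
      rw [e]
      exact hnat _ (by omega)
  have e : a = ((a.num * a.den : ℤ) : ℚ) * ((a.den : ℚ)⁻¹ * (a.den : ℚ)⁻¹) := by
    have hd : (a.den : ℚ) ≠ 0 := by exact_mod_cast a.den_nz
    push_cast
    field_simp
    exact (Rat.mul_den_eq_num a)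
  have hd : (a.den : ℚ)⁻¹ ≠ 0 := inv_ne_zero (by exact_mod_cast a.den_nz)
  have hnz : (a.num * a.den : ℤ) ≠ 0 :=
    mul_ne_zero (Rat.num_ne_zero.2 ha) (by exact_mod_cast a.den_nz)
  rw [e]
  exact PF_mul (by exact_mod_cast hnz) (mul_ne_zero hd hd) hb (hint _ hnz) (PF_sq hd hb)

lemma PF_of {a b : ℚ} (S₀ : Finset ℕ) (h1 : ∀ p, p ∉ S₀ → hp p a b = 1)
    (h2 : (∏ p ∈ S₀, hp p a b) * hr a b = 1) : PF a b := by
  refine ⟨S₀, fun S hS => ?_⟩
  rw [← Finset.prod_subset hS (fun p _ hp => h1 p hp)]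
  exact h2

/-! ### values -/

lemma hp_two (i j : ℕ) (u w : ℤ) (hu : u % 2 = 1) (hw : w % 2 = 1) (a b : ℚ)
    (ha : a = ((2 : ℤ) ^ i * u : ℤ)) (hb : b = ((2 : ℤ) ^ j * w : ℤ)) :
    hp 2 a b = (-1) ^ (e4 u * e4 w + i * o8 w + j * o8 u) := by
  unfold hp
  rw [dif_pos Nat.prime_two, hQ_two, ← htwo_two i j u w hu hw, ha, hb]
  push_cast
  rfl

lemma hp_odd (q : ℕ) (hq : q.Prime) (hq2 : q ≠ 2) (i j : ℕ) (u w : ℤ) (hu : ¬ (q : ℤ) ∣ u)
    (hw : ¬ (q : ℤ) ∣ w) (a b : ℚ)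
    (ha : a = ((q : ℤ) ^ i * u : ℤ)) (hb : b = ((q : ℤ) ^ j * w : ℤ)) :
    hp q a b = jacobiSym (-1) q ^ (i * j) * jacobiSym u q ^ j * jacobiSym w q ^ i := by
  have := Fact.mk hq
  unfold hp
  rw [dif_pos hq, hQ_odd q hq2, ← hodd_odd q i j u w hu hw, ha, hb]
  push_cast
  rfl

lemma hp_unit (q : ℕ) (hq2 : q ≠ 2) (u w : ℤ) (hu : q.Prime → ¬ (q : ℤ) ∣ u)
    (hw : q.Prime → ¬ (q : ℤ) ∣ w) (a b : ℚ) (ha : a = u) (hb : b = w) :
    hp q a b = 1 := by
  by_cases hq : q.Prime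
  · rw [hp_odd q hq hq2 0 0 u w (hu hq) (hw hq) a b (by simp [ha]) (by simp [hb])]
    simp
  · unfold hp
    rw [dif_neg hq]

lemma hr_pos {a b : ℚ} (ha : 0 < a ∨ 0 < b) : hr a b = 1 := by
  unfold hr hR
  simp only
  rw [if_neg]
  rintro ⟨h1, h2⟩
  rcases ha with h | h
  · have : (0 : ℝ) < a := by exact_mod_cast h
    linarith
  · have : (0 : ℝ) < b := by exact_mod_cast h
    linarith

lemma not_dvd_one {q : ℕ} (hq : q.Prime) : ¬ (q : ℤ) ∣ 1 := by
  intro h
  have := Int.natAbs_dvd_natAbs.2 h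
  simp at this
  exact hq.one_lt.ne' this

lemma not_dvd_neg_one {q : ℕ} (hq : q.Prime) : ¬ (q : ℤ) ∣ -1 := by
  intro h
  exact not_dvd_one hq (by simpa using h)

lemma not_dvd_two {q : ℕ} (hq : q.Prime) (hq2 : q ≠ 2) : ¬ (q : ℤ) ∣ 2 := by
  intro h
  have h2 : (q : ℤ) ∣ ((2 : ℕ) : ℤ) := by exact_mod_cast h
  rw [Int.natCast_dvd_natCast, Nat.prime_dvd_prime_iff_eq hq Nat.prime_two] at h2
  exact hq2 h2

lemma not_dvd_prime {q r : ℕ} (hq : q.Prime) (hr : r.Prime) (h : q ≠ r) : ¬ (q : ℤ) ∣ (r : ℤ) := by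
  intro h2
  rw [Int.natCast_dvd_natCast, Nat.prime_dvd_prime_iff_eq hq hr] at h2
  exact h h2

lemma odd_prime_mod {q : ℕ} (hq : q.Prime) (hq2 : q ≠ 2) : (q : ℤ) % 2 = 1 := by
  have := hq.eq_two_or_odd
  omega

lemma chi4_nat {q : ℕ} (hq : (q : ℤ) % 2 = 1) : ZMod.χ₄ (q : ZMod 4) = (-1) ^ e4 (q : ℤ) := by
  have h := ZMod.χ₄_int_eq_if_mod_four (q : ℤ)
  rw [Int.cast_natCast] at h
  rw [h]
  unfold e4
  have : (q : ℤ) % 4 = 1 ∨ (q : ℤ) % 4 = 3 := by omega
  rcases this with h | h <;> simp [h, hq]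

lemma chi8_nat {q : ℕ} (hq : (q : ℤ) % 2 = 1) : ZMod.χ₈ (q : ZMod 8) = (-1) ^ o8 (q : ℤ) := by
  have h := ZMod.χ₈_int_eq_if_mod_eight (q : ℤ)
  rw [Int.cast_natCast] at h
  rw [h]
  unfold o8
  have : (q : ℤ) % 8 = 1 ∨ (q : ℤ) % 8 = 3 ∨ (q : ℤ) % 8 = 5 ∨ (q : ℤ) % 8 = 7 := by omega
  rcases this with h | h | h | h <;> simp [h, hq]

lemma j_neg_one {q : ℕ} (hq : q.Prime) (hq2 : q ≠ 2) : jacobiSym (-1) q = (-1) ^ e4 (q : ℤ) := by
  rw [jacobiSym.at_neg_one (hq.odd_of_ne_two hq2), chi4_nat (odd_prime_mod hq hq2)]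

lemma j_two {q : ℕ} (hq : q.Prime) (hq2 : q ≠ 2) : jacobiSym 2 q = (-1) ^ o8 (q : ℤ) := by
  rw [jacobiSym.at_two (hq.odd_of_ne_two hq2), chi8_nat (odd_prime_mod hq hq2)]

lemma sgn_mul_self (n : ℕ) : ((-1 : ℤ) ^ n) * (-1) ^ n = 1 := by
  rw [← mul_pow]
  simp

lemma e4_one : e4 1 = 0 := by decide
lemma e4_neg_one : e4 (-1) = 1 := by decide
lemma o8_one : o8 1 = 0 := by decide
lemma o8_neg_one : o8 (-1) = 0 := by decide

lemma PF_nn : PF (-1) (-1) := by
  refine PF_of {2} (fun p hp2 => ?_) ?_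
  · rw [Finset.mem_singleton] at hp2
    exact hp_unit p hp2 (-1) (-1) not_dvd_neg_one not_dvd_neg_one _ _ (by simp) (by simp)
  · rw [Finset.prod_singleton, hp_two 0 0 (-1) (-1) (by decide) (by decide) _ _ (by simp)
      (by simp)]
    unfold hr hR
    simp [e4_neg_one]

lemma PF_n2 : PF (-1) (2 : ℕ) := by
  refine PF_of {2} (fun p hp2 => ?_) ?_
  · rw [Finset.mem_singleton] at hp2
    exact hp_unit p hp2 (-1) 2 not_dvd_neg_one (fun h => not_dvd_two h hp2) _ _ (by simp) (by simp)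
  · rw [Finset.prod_singleton, hp_two 0 1 (-1) 1 (by decide) (by decide) _ _ (by simp)
      (by simp), hr_pos (Or.inr (by norm_num))]
    simp [e4_one, o8_neg_one]

lemma PF_22 : PF (2 : ℕ) (2 : ℕ) := by
  refine PF_of {2} (fun p hp2 => ?_) ?_
  · rw [Finset.mem_singleton] at hp2
    exact hp_unit p hp2 2 2 (fun h => not_dvd_two h hp2) (fun h => not_dvd_two h hp2) _ _ (by simp)
      (by simp)
  · rw [Finset.prod_singleton, hp_two 1 1 1 1 (by decide) (by decide) _ _ (by simp)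
      (by simp), hr_pos (Or.inr (by norm_num))]
    simp [e4_one, o8_one]

lemma PF_nq {q : ℕ} (hq : q.Prime) (hq2 : q ≠ 2) : PF (-1) q := by
  refine PF_of {2, q} (fun p hp2 => ?_) ?_
  · simp only [Finset.mem_insert, Finset.mem_singleton, not_or] at hp2
    exact hp_unit p hp2.1 (-1) q not_dvd_neg_one (fun h => not_dvd_prime h hq hp2.2) _ _ (by simp)
      (by simp)
  · rw [Finset.prod_pair (Ne.symm hq2), hp_two 0 0 (-1) q (by decide) (odd_prime_mod hq hq2) _ _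
      (by simp) (by simp), hp_odd q hq hq2 0 1 (-1) 1 (not_dvd_neg_one hq) (not_dvd_one hq) _ _
      (by simp) (by simp), hr_pos (Or.inr (by exact_mod_cast hq.pos)), j_neg_one hq hq2]
    simp [e4_neg_one, sgn_mul_self]

lemma PF_2q {q : ℕ} (hq : q.Prime) (hq2 : q ≠ 2) : PF (2 : ℕ) q := by
  refine PF_of {2, q} (fun p hp2 => ?_) ?_
  · simp only [Finset.mem_insert, Finset.mem_singleton, not_or] at hp2
    exact hp_unit p hp2.1 2 q (fun h => not_dvd_two h hp2.1) (fun h => not_dvd_prime h hq hp2.2)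
      _ _ (by simp) (by simp)
  · rw [Finset.prod_pair (Ne.symm hq2), hp_two 1 0 1 q (by decide) (odd_prime_mod hq hq2) _ _
      (by simp) (by simp), hp_odd q hq hq2 0 1 2 1 (not_dvd_two hq hq2) (not_dvd_one hq) _ _
      (by simp) (by simp), hr_pos (Or.inr (by exact_mod_cast hq.pos)), j_two hq hq2]
    simp [e4_one, sgn_mul_self]

lemma PF_qq {q : ℕ} (hq : q.Prime) (hq2 : q ≠ 2) : PF q q := by
  refine PF_of {2, q} (fun p hp2 => ?_) ?_
  · simp only [Finset.mem_insert, Finset.mem_singleton, not_or] at hp2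
    exact hp_unit p hp2.1 q q (fun h => not_dvd_prime h hq hp2.2)
      (fun h => not_dvd_prime h hq hp2.2) _ _ (by simp) (by simp)
  · rw [Finset.prod_pair (Ne.symm hq2), hp_two 0 0 q q (odd_prime_mod hq hq2)
      (odd_prime_mod hq hq2) _ _
      (by simp) (by simp), hp_odd q hq hq2 1 1 1 1 (not_dvd_one hq) (not_dvd_one hq) _ _
      (by simp) (by simp), hr_pos (Or.inr (by exact_mod_cast hq.pos)), j_neg_one hq hq2]
    have : e4 (q : ℤ) * e4 (q : ℤ) = e4 (q : ℤ) := by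
      unfold e4
      split_ifs <;> rfl
    simp [this, sgn_mul_self]

lemma recip {q r : ℕ} (hq : q.Prime) (hq2 : q ≠ 2) (hr : r.Prime) (hr2 : r ≠ 2) (h : q ≠ r) :
    (-1) ^ (e4 (q : ℤ) * e4 (r : ℤ)) * (jacobiSym r q * jacobiSym q r) = 1 := by
  have h1 := jacobiSym.quadratic_reciprocity_if (a := q) (b := r)
    (by have := odd_prime_mod hq hq2; omega) (by have := odd_prime_mod hr hr2; omega)
  have hc : (q : ℤ).gcd r = 1 := by
    rw [Int.gcd_natCast_natCast]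
    exact (Nat.coprime_primes hq hr).2 h
  have h2 := jacobiSym.sq_one hc
  have h3 : (-1 : ℤ) ^ (e4 (q : ℤ) * e4 (r : ℤ)) = if q % 4 = 3 ∧ r % 4 = 3 then -1 else 1 := by
    unfold e4
    have e1 : ((q : ℤ) % 4 = 3) ↔ q % 4 = 3 := by omega
    have e2 : ((r : ℤ) % 4 = 3) ↔ r % 4 = 3 := by omega
    simp only [e1, e2]
    split_ifs <;> simp_all
  rw [pow_two] at h2
  rw [h3]
  split_ifs at h1 with h4
  · rw [if_pos h4]
    have h5 : jacobiSym r q = - jacobiSym q r := by rw [← h1]; ring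
    rw [h5]
    linarith
  · rw [if_neg h4]
    rw [h1]
    linarith

lemma PF_qr {q r : ℕ} (hq : q.Prime) (hq2 : q ≠ 2) (hr' : r.Prime) (hr2 : r ≠ 2) (h : q ≠ r) :
    PF q r := by
  refine PF_of {2, q, r} (fun p hp2 => ?_) ?_
  · simp only [Finset.mem_insert, Finset.mem_singleton, not_or] at hp2
    exact hp_unit p hp2.1 q r (fun h => not_dvd_prime h hq hp2.2.1)
      (fun h => not_dvd_prime h hr' hp2.2.2) _ _ (by simp) (by simp)
  · rw [Finset.prod_insert (by simp [hq2.symm, hr2.symm]), Finset.prod_pair h,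
      hp_two 0 0 q r (odd_prime_mod hq hq2) (odd_prime_mod hr' hr2) _ _ (by simp) (by simp),
      hp_odd q hq hq2 1 0 1 r (not_dvd_one hq) (not_dvd_prime hq hr' h) _ _
      (by simp) (by simp),
      hp_odd r hr' hr2 0 1 q 1 (not_dvd_prime hr' hq h.symm) (not_dvd_one hr') _ _
      (by simp) (by simp),
      hr_pos (Or.inr (by exact_mod_cast hr'.pos))]
    have := recip hq hq2 hr' hr2 h
    simpa using this

lemma PF_prime {q r : ℕ} (hq : q.Prime) (hr : r.Prime) : PF q r := by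
  by_cases hq2 : q = 2
  · by_cases hr2 : r = 2
    · subst hq2 hr2
      exact PF_22
    · subst hq2
      exact PF_2q hr hr2
  · by_cases hr2 : r = 2
    · subst hr2
      exact PF_symm (PF_2q hq hq2)
    · by_cases h : q = r
      · subst h
        exact PF_qq hq hq2
      · exact PF_qr hq hq2 hr hr2 h

lemma PF_nprime {q : ℕ} (hq : q.Prime) : PF (-1) q := by
  by_cases hq2 : q = 2
  · subst hq2
    exact PF_n2
  · exact PF_nq hq hq2

theorem PF_all (a b : ℚ) (ha : a ≠ 0) (hb : b ≠ 0) : PF a b := by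
  refine PF_left hb ?_ ?_ a ha
  · refine PF_symm (PF_left (by norm_num) PF_nn ?_ b hb)
    intro q hq
    exact PF_symm (PF_nprime hq)
  · intro q hq
    refine PF_symm (PF_left (by exact_mod_cast hq.ne_zero) (PF_nprime hq) ?_ b hb)
    intro r hr
    exact PF_prime hr hq

/-- the system of Hilbert symbols of `ℚ` -/
noncomputable def hsys : HSys where
  hQ := fun p _ => hQ p
  hR := hR
  pos a b ha _ := by
    show (if a < 0 ∧ b < 0 then (-1 : ℤ) else 1) = 1
    rw [if_neg]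
    rintro ⟨h, _⟩
    linarith
  neg a b ha hb := by
    show (if a < 0 ∧ b < 0 then (-1 : ℤ) else 1) = -1
    rw [if_pos ⟨ha, hb⟩]
  two := htwo_two
  odd p _ hp i j u w hu hw := by
    rw [hQ_odd p hp]
    exact hodd_odd p i j u w hu hw
  val p _ hp a b _ hb := by
    rw [hQ_odd p hp]
    exact hodd_val p a b hb
  prod a b ha hb T _ hT := by
    obtain ⟨S₀, h⟩ := PF_all a b ha hb
    have h1 := h (S₀ ∪ T) Finset.subset_union_left
    have h2 : ∏ p ∈ T, hp p a b = ∏ p ∈ S₀ ∪ T, hp p a b := by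
      refine Finset.prod_subset Finset.subset_union_right (fun p _ hpT => ?_)
      unfold hp
      split_ifs with h0
      · have := Fact.mk h0
        exact hT p hpT
      · rfl
    rw [← h2] at h1
    exact h1

end Vale.Agent.P017.H335
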