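import Vale.Agent.P017.H335.Unit
import Vale.Agent.P017.L2.Defs

/-!
# The Steinberg relation for the symbols `sy X Y`
-/

namespace Vale.Agent.P017.H335

open Vale.Agent.P017.L2

variable {p : ℕ} [Fact p.Prime]

section

variable (X Y : ℤ_[p]ˣ →* ℤˣ)

lemma sy_mul' (a b c : ℚ_[p]) (ha : a ≠ 0) (hb : b ≠ 0) (_ : c ≠ 0) :
    sy X Y (a * b) c = sy X Y a c * sy X Y b c := sy_mul X Y ha hb

lemma zpow_even_unit (s : ℤˣ) (n : ℤ) : s ^ (n + n) = 1 := by
  rw [zpow_add]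
  exact Int.units_mul_self _

lemma sy_neg (h1 : ∀ s, br (Y s) (Y (-s)) = 1) {a : ℚ_[p]} (ha : a ≠ 0) :
    sy X Y (-a) a = 1 := by
  unfold sy
  rw [us_neg ha, val_neg ha, br_symm, h1, one_mul, ← mul_zpow, ← map_mul, zpow_mul, ← mul_zpow]
  have h2 : X (us a * -us a) * X (-1) ^ a.valuation = X (-1) ^ (1 + a.valuation) *
      (X (us a) * X (us a)) := by
    rw [show us a * -us a = (-1) * (us a * us a) by simp, map_mul, map_mul, zpow_add, zpow_one]
    simp only [mul_assoc, mul_comm, mul_left_comm]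
  rw [h2, Int.units_mul_self, mul_one, ← zpow_mul]
  have : Even ((1 + a.valuation) * a.valuation) := by
    rw [add_comm]
    have := Int.even_mul_succ_self a.valuation
    rwa [mul_comm] at this
  obtain ⟨m, hm⟩ := this
  rw [hm]
  exact zpow_even_unit _ _

/-- elements of positive valuation -/
lemma stein_pos (h2 : ∀ (s w : ℤ_[p]ˣ) (n : ℕ), 1 ≤ n → (w : ℤ_[p]) = 1 - s * (p : ℤ_[p]) ^ n →
    br (Y w) (Y s) * X w ^ n = 1) {c : ℚ_[p]} (hc : c ≠ 0) (hv : 0 < c.valuation) :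
    sy X Y (1 - c) c = 1 := by
  obtain ⟨n, hn⟩ := Int.eq_ofNat_of_zero_le hv.le
  have hn1 : 1 ≤ n := by omega
  have hc2 := us_spec hc
  set s := us c with hs
  have hnorm : ‖(1 - (s : ℤ_[p]) * (p : ℤ_[p]) ^ n)‖ = 1 := by
    by_contra hne
    have hlt : ‖(1 - (s : ℤ_[p]) * (p : ℤ_[p]) ^ n)‖ < 1 := lt_of_le_of_ne (PadicInt.norm_le_one _) hne
    have h3 : ‖(s : ℤ_[p]) * (p : ℤ_[p]) ^ n‖ < 1 := by
      rw [PadicInt.norm_lt_one_iff_dvd]
      exact Dvd.dvd.mul_left (dvd_pow_self _ (by omega)) _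
    have h4 := PadicInt.norm_lt_one_add hlt h3
    rw [sub_add_cancel] at h4
    simp at h4
  obtain ⟨w, hw⟩ := PadicInt.isUnit_iff.2 hnorm
  have hcw : 1 - c = ((w : ℤ_[p]) : ℚ_[p]) * (p : ℚ_[p]) ^ (0 : ℤ) := by
    rw [hw, hc2, hn]
    push_cast
    simp
  obtain ⟨hv1, hu1⟩ := us_unique hcw
  unfold sy
  rw [hv1, hu1, hn, ← hs]
  simp only [zpow_zero, mul_one, zero_mul, zpow_natCast]
  exact h2 s w n hn1 hw

lemma val_nonneg_of_coe (z : ℤ_[p]) : 0 ≤ ((z : ℚ_[p])).valuation :=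
  PadicInt.valuation_coe_nonneg

/-- the Steinberg relation -/
lemma stein (h1 : ∀ s, br (Y s) (Y (-s)) = 1)
    (h2 : ∀ (s w : ℤ_[p]ˣ) (n : ℕ), 1 ≤ n → (w : ℤ_[p]) = 1 - s * (p : ℤ_[p]) ^ n →
      br (Y w) (Y s) * X w ^ n = 1)
    (h3 : ∀ s w : ℤ_[p]ˣ, (s : ℤ_[p]) + w = 1 → br (Y w) (Y s) = 1)
    (c : ℚ_[p]) (hc : c ≠ 0) (hc1 : 1 - c ≠ 0) : sy X Y (1 - c) c = 1 := by
  rcases lt_trichotomy c.valuation 0 with hv | hv | hv
  · -- negative valuation
    have hi0 : c⁻¹ ≠ 0 := inv_ne_zero hc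
    have hi : 0 < (c⁻¹).valuation := by
      rw [Padic.valuation_inv]
      omega
    have e : 1 - c = (-c) * (1 - c⁻¹) := by
      field_simp
      ring
    have hi1 : 1 - c⁻¹ ≠ 0 := by
      intro h0
      rw [h0, mul_zero] at e
      exact hc1 e
    have h4 := stein_pos X Y h2 hi0 hi
    rw [sy_symm, fm_inv _ (sy_mul' X Y) hc hi1, sy_symm] at h4
    rw [e, sy_mul X Y (neg_ne_zero.2 hc) hi1, sy_neg X Y h1 hc, h4, one_mul]
  · -- valuation zero
    have hc2 := us_spec hc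
    rw [hv, zpow_zero, mul_one] at hc2
    have e : 1 - c = (((1 : ℤ_[p]) - us c : ℤ_[p]) : ℚ_[p]) := by
      conv_lhs => rw [hc2]
      push_cast
      rfl
    have hv2 : 0 ≤ (1 - c).valuation := by
      rw [e]
      exact val_nonneg_of_coe _
    rcases hv2.eq_or_lt with hv0 | hv0
    · have hw := us_spec hc1
      rw [← hv0, zpow_zero, mul_one] at hw
      unfold sy
      rw [← hv0, hv]
      simp only [zpow_zero, mul_one, mul_zero]
      apply h3
      apply PadicInt.ext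
      push_cast
      rw [← hc2, ← hw]
      ring
    · have h4 := stein_pos X Y h2 hc1 hv0
      rw [sy_symm]
      rwa [sub_sub_cancel] at h4
  · exact stein_pos X Y h2 hc hv

/-- the structure `HS` of the symbol -/
noncomputable def mkHS (h1 : ∀ s, br (Y s) (Y (-s)) = 1)
    (h2 : ∀ (s w : ℤ_[p]ˣ) (n : ℕ), 1 ≤ n → (w : ℤ_[p]) = 1 - s * (p : ℤ_[p]) ^ n →
      br (Y w) (Y s) * X w ^ n = 1)
    (h3 : ∀ s w : ℤ_[p]ˣ, (s : ℤ_[p]) + w = 1 → br (Y w) (Y s) = 1) : HS ℚ_[p] where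
  h a b := (sy X Y a b : ℤ)
  pm a b _ _ := by
    rcases Int.units_eq_one_or (sy X Y a b) with h | h <;> simp [h]
  symm a b := by rw [sy_symm]
  mul a b c ha hb _ := by
    rw [sy_mul X Y ha hb]
    push_cast
    rfl
  norm a b x y ha hb e := by
    rw [fm_norm _ (sy_mul' X Y) (sy_symm X Y) (fun a ha => sy_neg X Y h1 ha) (stein X Y h1 h2 h3)
      a b x y ha hb e]
    simp

end

end Vale.Agent.P017.H335
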