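import Vale.Agent.P017.H335.Stein

/-!
# The Hilbert symbols of `ℚ_p`
-/

namespace Vale.Agent.P017.H335

open Vale.Agent.P017.L2

section units

variable (p : ℕ) [Fact p.Prime]

/-- an integer prime to `p` as a unit -/
noncomputable def uI (u : ℤ) (hu : ¬ (p : ℤ) ∣ u) : ℤ_[p]ˣ :=
  (PadicInt.isUnit_iff.2 (PadicInt.norm_intCast_eq_one_iff.2
    ((Int.isCoprime_iff_gcd_eq_one.2 (by
      have := (Nat.Prime.coprime_iff_not_dvd (Fact.out : p.Prime)).2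
        (fun h => hu (Int.natCast_dvd.2 h))
      rw [Int.gcd_comm]
      exact this)) : IsCoprime u (p : ℤ)))).unit

lemma uI_coe (u : ℤ) (hu : ¬ (p : ℤ) ∣ u) : ((uI p u hu : ℤ_[p]ˣ) : ℤ_[p]) = (u : ℤ_[p]) := rfl

lemma pow_mul_spec (i : ℕ) (u : ℤ) (hu : ¬ (p : ℤ) ∣ u) :
    (((p : ℤ) ^ i * u : ℤ) : ℚ_[p]).valuation = i ∧
      us (((p : ℤ) ^ i * u : ℤ) : ℚ_[p]) = uI p u hu := by
  apply us_unique
  rw [uI_coe]
  push_cast
  rw [zpow_natCast]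
  ring

lemma int_spec (u : ℤ) (hu : ¬ (p : ℤ) ∣ u) :
    ((u : ℤ) : ℚ_[p]).valuation = 0 ∧ us ((u : ℤ) : ℚ_[p]) = uI p u hu := by
  apply us_unique
  rw [uI_coe]
  push_cast
  simp

end units

section odd

variable (p : ℕ) [Fact p.Prime]

/-- the quadratic character of the units -/
noncomputable def chi : ℤ_[p]ˣ →* ℤˣ :=
  (quadraticChar (ZMod p)).toUnitHom.comp
    (Units.map (PadicInt.toZMod : ℤ_[p] →+* ZMod p).toMonoidHom)

lemma chi_coe (s : ℤ_[p]ˣ) :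
    ((chi p s : ℤˣ) : ℤ) = quadraticChar (ZMod p) (PadicInt.toZMod (s : ℤ_[p])) := rfl

lemma chi_uI (u : ℤ) (hu : ¬ (p : ℤ) ∣ u) : ((chi p (uI p u hu) : ℤˣ) : ℤ) = jacobiSym u p := by
  rw [chi_coe, uI_coe, map_intCast, ← jacobiSym.legendreSym.to_jacobiSym]
  rfl

lemma chi_neg_one : ((chi p (-1) : ℤˣ) : ℤ) = jacobiSym (-1) p := by
  rw [chi_coe, ← jacobiSym.legendreSym.to_jacobiSym]
  simp [legendreSym]

lemma chi_one (s w : ℤ_[p]ˣ) (n : ℕ) (hn : 1 ≤ n) (e : (w : ℤ_[p]) = 1 - s * (p : ℤ_[p]) ^ n) :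
    chi p w = 1 := by
  apply Units.ext
  rw [chi_coe, e]
  have h0 : (PadicInt.toZMod : ℤ_[p] →+* ZMod p) (p : ℤ_[p]) = 0 := by
    rw [map_natCast]
    exact ZMod.natCast_self p
  rw [map_sub, map_one, map_mul, map_pow, h0, zero_pow (by omega), mul_zero, sub_zero]
  simp

/-- the symbol for odd `p` -/
noncomputable def hodd : HS ℚ_[p] :=
  mkHS (chi p) 1 (fun s => by simp [br_one]) (fun s w n hn e => by
    simp [br_one, chi_one p s w n hn e]) (fun s w _ => by simp [br_one])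

lemma hodd_apply (a b : ℚ_[p]) : (hodd p).h a b = ((sy (chi p) 1 a b : ℤˣ) : ℤ) := rfl

lemma hodd_odd (i j : ℕ) (u w : ℤ) (hu : ¬ (p : ℤ) ∣ u) (hw : ¬ (p : ℤ) ∣ w) :
    (hodd p).h (((p : ℤ) ^ i * u : ℤ) : ℚ_[p]) (((p : ℤ) ^ j * w : ℤ) : ℚ_[p]) =
      jacobiSym (-1) p ^ (i * j) * jacobiSym u p ^ j * jacobiSym w p ^ i := by
  obtain ⟨h1, h2⟩ := pow_mul_spec p i u hu
  obtain ⟨h3, h4⟩ := pow_mul_spec p j w hw
  rw [hodd_apply]
  unfold sy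
  rw [h1, h2, h3, h4]
  simp only [MonoidHom.one_apply, br_one, one_mul, zpow_natCast]
  rw [show ((i : ℤ) * (j : ℤ)) = ((i * j : ℕ) : ℤ) by push_cast; rfl, zpow_natCast]
  push_cast
  rw [chi_uI, chi_uI, chi_neg_one]
  ring

lemma hodd_val (a : ℚ_[p]) (b : ℤ) (hb : ¬ (p : ℤ) ∣ b) :
    (hodd p).h a (b : ℚ_[p]) = if Even a.valuation then 1 else jacobiSym b p := by
  obtain ⟨h3, h4⟩ := int_spec p b hb
  rw [hodd_apply]
  unfold sy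
  rw [h3, h4]
  simp only [MonoidHom.one_apply, br_one, one_mul, zpow_zero, mul_zero, mul_one]
  split_ifs with h
  · obtain ⟨m, hm⟩ := h
    rw [hm, zpow_even_unit]
    simp
  · rw [Int.not_even_iff_odd] at h
    obtain ⟨m, hm⟩ := h
    rw [hm, zpow_add, two_mul, zpow_even_unit, one_mul, zpow_one, chi_uI]

end odd

section two

/-- reduction modulo 8 -/
noncomputable def r8 : ℤ_[2] →+* ZMod 8 := (PadicInt.toZModPow 3 : ℤ_[2] →+* ZMod (2 ^ 3))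

/-- `χ₄` on `ZMod 8` -/
def c4 : MulChar (ZMod 8) ℤ where
  toFun x := ZMod.χ₄ (ZMod.castHom (show 4 ∣ 8 by norm_num) (ZMod 4) x)
  map_one' := by decide
  map_mul' := by decide
  map_nonunit' := by decide

/-- `χ₈` on the units of `ℤ_2` -/
noncomputable def X2 : ℤ_[2]ˣ →* ℤˣ :=
  (ZMod.χ₈).toUnitHom.comp (Units.map r8.toMonoidHom)

/-- `χ₄` on the units of `ℤ_2` -/
noncomputable def Y2 : ℤ_[2]ˣ →* ℤˣ :=
  c4.toUnitHom.comp (Units.map r8.toMonoidHom)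

lemma X2_coe (s : ℤ_[2]ˣ) : ((X2 s : ℤˣ) : ℤ) = ZMod.χ₈ (r8 (s : ℤ_[2])) := rfl

lemma Y2_coe (s : ℤ_[2]ˣ) : ((Y2 s : ℤˣ) : ℤ) = c4 (r8 (s : ℤ_[2])) := rfl

/-- integral version of `br` -/
def bz (s t : ℤ) : ℤ := if s = -1 ∧ t = -1 then -1 else 1

lemma br_coe : ∀ s t : ℤˣ, ((br s t : ℤˣ) : ℤ) = bz s t := by decide

lemma unit8 (s : ℤ_[2]ˣ) : r8 (s : ℤ_[2]) * r8 (s : ℤ_[2]) = 1 := by
  have h : IsUnit (r8 (s : ℤ_[2])) := s.isUnit.map r8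
  obtain ⟨t, ht⟩ := isUnit_iff_exists_inv.1 h
  revert ht
  generalize r8 (s : ℤ_[2]) = x
  revert x t
  decide

lemma Y2_neg (s : ℤ_[2]ˣ) : Y2 (-s) = - Y2 s := by
  apply Units.ext
  have h := unit8 s
  rw [Units.val_neg, Y2_coe, Y2_coe, Units.val_neg, map_neg]
  revert h
  generalize r8 (s : ℤ_[2]) = x
  revert x
  decide

lemma X2_neg_one : X2 (-1) = 1 := by
  apply Units.ext
  rw [X2_coe, Units.val_neg, map_neg]
  simp
  decide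

lemma two_h2 (s w : ℤ_[2]ˣ) (n : ℕ) (hn : 1 ≤ n) (e : (w : ℤ_[2]) = 1 - s * ((2 : ℕ) : ℤ_[2]) ^ n) :
    br (Y2 w) (Y2 s) * X2 w ^ n = 1 := by
  apply Units.ext
  push_cast
  rw [br_coe, X2_coe, Y2_coe, Y2_coe]
  have e8 : r8 (w : ℤ_[2]) = 1 - r8 (s : ℤ_[2]) * 2 ^ n := by
    have h2 : r8 ((2 : ℕ) : ℤ_[2]) = 2 := by
      rw [map_natCast]
      rfl
    rw [e, map_sub, map_one, map_mul, map_pow, h2]
  have h := unit8 s
  rw [e8]
  revert h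
  generalize r8 (s : ℤ_[2]) = x
  have hcase : n = 1 ∨ n = 2 ∨ 3 ≤ n := by omega
  rcases hcase with rfl | rfl | h3
  · revert x
    decide
  · revert x
    decide
  · have h0 : (2 : ZMod 8) ^ n = 0 := by
      obtain ⟨m, rfl⟩ := Nat.exists_eq_add_of_le h3
      rw [pow_add, show (2 : ZMod 8) ^ 3 = 0 by decide, zero_mul]
    rw [h0, mul_zero, sub_zero, map_one, map_one, one_pow, mul_one]
    intro _
    simp [bz]

lemma two_h3 (s w : ℤ_[2]ˣ) (e : (s : ℤ_[2]) + w = 1) : br (Y2 w) (Y2 s) = 1 := by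
  exfalso
  have hs := unit8 s
  have hw := unit8 w
  have e8 : r8 (s : ℤ_[2]) + r8 (w : ℤ_[2]) = 1 := by
    rw [← map_add, e, map_one]
  revert hs hw e8
  generalize r8 (s : ℤ_[2]) = x
  generalize r8 (w : ℤ_[2]) = y
  revert x y
  decide

/-- the symbol for `p = 2` -/
noncomputable def htwo : HS ℚ_[2] :=
  mkHS X2 Y2 (fun s => by rw [Y2_neg, br_neg]) two_h2 two_h3

lemma htwo_apply (a b : ℚ_[2]) : htwo.h a b = ((sy X2 Y2 a b : ℤˣ) : ℤ) := rfl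

lemma ndvd2 {u : ℤ} (hu : u % 2 = 1) : ¬ ((2 : ℕ) : ℤ) ∣ u := by
  intro h
  rw [Int.dvd_iff_emod_eq_zero] at h
  push_cast at h
  omega

lemma X2_uI (u : ℤ) (hu : u % 2 = 1) : ((X2 (uI 2 u (ndvd2 hu)) : ℤˣ) : ℤ) = (-1) ^ o8 u := by
  rw [X2_coe, uI_coe, map_intCast, ZMod.χ₈_int_eq_if_mod_eight]
  unfold o8
  have : u % 8 = 1 ∨ u % 8 = 3 ∨ u % 8 = 5 ∨ u % 8 = 7 := by omega
  rcases this with h | h | h | h <;> simp [h, hu]

lemma Y2_uI (u : ℤ) (hu : u % 2 = 1) : ((Y2 (uI 2 u (ndvd2 hu)) : ℤˣ) : ℤ) = (-1) ^ e4 u := by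
  rw [Y2_coe, uI_coe, map_intCast]
  have : c4 ((u : ℤ) : ZMod 8) = ZMod.χ₄ ((u : ℤ) : ZMod 4) := by
    show ZMod.χ₄ (ZMod.castHom (show 4 ∣ 8 by norm_num) (ZMod 4) ((u : ℤ) : ZMod 8)) = _
    rw [map_intCast]
  rw [this, ZMod.χ₄_int_eq_if_mod_four]
  unfold e4
  have : u % 4 = 1 ∨ u % 4 = 3 := by omega
  rcases this with h | h <;> simp [h, hu]

lemma htwo_two (i j : ℕ) (u w : ℤ) (hu : u % 2 = 1) (hw : w % 2 = 1) :
    htwo.h (((2 : ℤ) ^ i * u : ℤ) : ℚ_[2]) (((2 : ℤ) ^ j * w : ℤ) : ℚ_[2]) =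
      (-1) ^ (e4 u * e4 w + i * o8 w + j * o8 u) := by
  obtain ⟨h1, h2⟩ := pow_mul_spec 2 i u (ndvd2 hu)
  obtain ⟨h3, h4⟩ := pow_mul_spec 2 j w (ndvd2 hw)
  push_cast at h1 h2 h3 h4
  rw [htwo_apply]
  unfold sy
  push_cast
  rw [h1, h2, h3, h4, X2_neg_one]
  simp only [one_zpow, zpow_natCast]
  push_cast
  rw [X2_uI w hw, X2_uI u hu, br_coe, Y2_uI u hu, Y2_uI w hw, pow_add, pow_add, ← pow_mul,
    ← pow_mul, mul_comm (o8 w), mul_comm (o8 u)]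
  have key : bz ((-1) ^ e4 u) ((-1) ^ e4 w) = (-1) ^ (e4 u * e4 w) := by
    unfold bz e4
    split_ifs <;> simp_all
  rw [key, mul_one]

end two

/-- the Hilbert symbols -/
noncomputable def hQ (p : ℕ) [i : Fact p.Prime] : HS ℚ_[p] := by
  by_cases h : p = 2
  · subst h
    exact htwo
  · exact hodd p

lemma hQ_two : hQ 2 = htwo := rfl

lemma hQ_odd (p : ℕ) [Fact p.Prime] (h : p ≠ 2) : hQ p = hodd p := by
  unfold hQ
  rw [dif_neg h]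

end Vale.Agent.P017.H335
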