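import Mathlib

/-!
# Unit parts of `p`-adic numbers, and symbols built from them
-/

namespace Vale.Agent.P017.H335

variable {p : ℕ} [Fact p.Prime]

/-- the unit part of a `p`-adic number -/
noncomputable def us (a : ℚ_[p]) : ℤ_[p]ˣ :=
  if h : ‖a * (p : ℚ_[p]) ^ (-a.valuation)‖ = 1 then PadicInt.mkUnits h else 1

lemma p_ne : (p : ℚ_[p]) ≠ 0 := by
  exact_mod_cast (Fact.out : p.Prime).ne_zero

lemma norm_us {a : ℚ_[p]} (ha : a ≠ 0) : ‖a * (p : ℚ_[p]) ^ (-a.valuation)‖ = 1 := by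
  have hp : (p : ℝ) ≠ 0 := by exact_mod_cast (Fact.out : p.Prime).ne_zero
  rw [norm_mul, norm_zpow, Padic.norm_p, Padic.norm_eq_zpow_neg_valuation ha, inv_zpow, ← zpow_neg,
    ← zpow_add₀ hp]
  simp

lemma us_spec {a : ℚ_[p]} (ha : a ≠ 0) :
    a = ((us a : ℤ_[p]) : ℚ_[p]) * (p : ℚ_[p]) ^ a.valuation := by
  rw [us, dif_pos (norm_us ha), PadicInt.mkUnits_eq, mul_assoc, ← zpow_add₀ p_ne]
  simp

lemma coe_unit_ne (s : ℤ_[p]ˣ) : ((s : ℤ_[p]) : ℚ_[p]) ≠ 0 := by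
  rw [PadicInt.coe_ne_zero]
  exact s.ne_zero

lemma val_unit (s : ℤ_[p]ˣ) : ((s : ℤ_[p]) : ℚ_[p]).valuation = 0 := by
  have h1 : ‖((s : ℤ_[p]) : ℚ_[p])‖ = 1 := by
    rw [PadicInt.padic_norm_e_of_padicInt]
    exact PadicInt.norm_units s
  rw [Padic.norm_eq_zpow_neg_valuation (coe_unit_ne s)] at h1
  have hp : (1 : ℝ) < p := by exact_mod_cast (Fact.out : p.Prime).one_lt
  have := (zpow_eq_one_iff_right₀ (by linarith) hp.ne').1 h1
  omega

lemma us_unique {a : ℚ_[p]} {n : ℤ} {s : ℤ_[p]ˣ}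
    (h : a = ((s : ℤ_[p]) : ℚ_[p]) * (p : ℚ_[p]) ^ n) : a.valuation = n ∧ us a = s := by
  have ha : a ≠ 0 := by
    rw [h]
    exact mul_ne_zero (coe_unit_ne s) (zpow_ne_zero _ p_ne)
  have hv : a.valuation = n := by
    rw [h, Padic.valuation_mul (coe_unit_ne s) (zpow_ne_zero _ p_ne), val_unit,
      Padic.valuation_zpow, Padic.valuation_p]
    simp
  refine ⟨hv, ?_⟩
  have h2 := us_spec ha
  rw [hv, h] at h2
  have h3 := mul_right_cancel₀ (zpow_ne_zero n p_ne) h2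
  rw [h]
  exact (Units.ext (PadicInt.ext h3)).symm

lemma us_mul {a b : ℚ_[p]} (ha : a ≠ 0) (hb : b ≠ 0) :
    us (a * b) = us a * us b := by
  refine (us_unique (n := a.valuation + b.valuation) ?_).2
  conv_lhs => rw [us_spec ha, us_spec hb]
  rw [zpow_add₀ p_ne]
  push_cast
  ring

lemma val_mul {a b : ℚ_[p]} (ha : a ≠ 0) (hb : b ≠ 0) :
    (a * b).valuation = a.valuation + b.valuation :=
  Padic.valuation_mul ha hb

lemma us_coe (s : ℤ_[p]ˣ) : us ((s : ℤ_[p]) : ℚ_[p]) = s :=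
  (us_unique (n := 0) (by simp)).2

lemma us_neg_one : us (-1 : ℚ_[p]) = -1 :=
  (us_unique (n := 0) (by simp)).2

lemma val_neg_one : (-1 : ℚ_[p]).valuation = 0 :=
  (us_unique (n := 0) (s := -1) (by simp)).1

lemma us_neg {a : ℚ_[p]} (ha : a ≠ 0) : us (-a) = - us a := by
  rw [show -a = (-1) * a by ring, us_mul (by simp) ha, us_neg_one]
  simp

lemma val_neg {a : ℚ_[p]} (ha : a ≠ 0) : (-a).valuation = a.valuation := by
  rw [show -a = (-1) * a by ring, val_mul (by simp) ha, val_neg_one]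
  simp

/-- `-1` at `(-1, -1)` and `1` elsewhere -/
def br (s t : ℤˣ) : ℤˣ := if s = -1 ∧ t = -1 then -1 else 1

lemma br_mul : ∀ s t r : ℤˣ, br (s * t) r = br s r * br t r := by decide

lemma br_symm : ∀ s t : ℤˣ, br s t = br t s := by decide

lemma br_neg : ∀ s : ℤˣ, br s (-s) = 1 := by decide

lemma br_one : ∀ s : ℤˣ, br s 1 = 1 := by decide

lemma one_br : ∀ s : ℤˣ, br 1 s = 1 := by decide

/-- the symbol given by two characters of the units -/
noncomputable def sy (X Y : ℤ_[p]ˣ →* ℤˣ) (a b : ℚ_[p]) : ℤˣ :=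
  br (Y (us a)) (Y (us b)) * X (us b) ^ a.valuation * X (us a) ^ b.valuation *
    X (-1) ^ (a.valuation * b.valuation)

lemma sy_symm (X Y : ℤ_[p]ˣ →* ℤˣ) (a b : ℚ_[p]) : sy X Y a b = sy X Y b a := by
  unfold sy
  rw [br_symm, mul_comm a.valuation]
  congr 1
  rw [mul_right_comm]

lemma sy_mul (X Y : ℤ_[p]ˣ →* ℤˣ) {a b c : ℚ_[p]} (ha : a ≠ 0) (hb : b ≠ 0) :
    sy X Y (a * b) c = sy X Y a c * sy X Y b c := by
  unfold sy
  rw [us_mul ha hb, val_mul ha hb, map_mul, map_mul, br_mul, mul_zpow, zpow_add, add_mul, zpow_add]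
  simp only [mul_assoc, mul_comm, mul_left_comm]

section formal

variable {k : Type*} [Field k] (h : k → k → ℤˣ)

lemma fm_one (hmul : ∀ a b c, a ≠ 0 → b ≠ 0 → c ≠ 0 → h (a * b) c = h a c * h b c) {c : k}
    (hc : c ≠ 0) : h 1 c = 1 := by
  have := hmul 1 1 c one_ne_zero one_ne_zero hc
  rw [mul_one] at this
  exact (left_eq_mul.1 this)

lemma fm_inv (hmul : ∀ a b c, a ≠ 0 → b ≠ 0 → c ≠ 0 → h (a * b) c = h a c * h b c) {a c : k}
    (ha : a ≠ 0) (hc : c ≠ 0) : h a⁻¹ c = h a c := by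
  have := hmul a a⁻¹ c ha (inv_ne_zero ha) hc
  rw [mul_inv_cancel₀ ha, fm_one h hmul hc] at this
  have h2 : h a c * h a c = 1 := Int.units_mul_self _
  calc h a⁻¹ c = (h a c * h a c) * h a⁻¹ c := by rw [h2, one_mul]
    _ = h a c * (h a c * h a⁻¹ c) := by rw [mul_assoc]
    _ = h a c := by rw [← this, mul_one]

lemma fm_sq (hmul : ∀ a b c, a ≠ 0 → b ≠ 0 → c ≠ 0 → h (a * b) c = h a c * h b c) {a c : k}
    (ha : a ≠ 0) (hc : c ≠ 0) : h (a ^ 2) c = 1 := by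
  rw [pow_two, hmul a a c ha ha hc]
  exact Int.units_mul_self _

/-- the norm property follows from the Steinberg relation -/
lemma fm_norm (hmul : ∀ a b c, a ≠ 0 → b ≠ 0 → c ≠ 0 → h (a * b) c = h a c * h b c)
    (hsymm : ∀ a b, h a b = h b a)
    (hneg : ∀ a, a ≠ 0 → h (-a) a = 1)
    (hst : ∀ c, c ≠ 0 → 1 - c ≠ 0 → h (1 - c) c = 1) (a b x y : k) (ha : a ≠ 0) (hb : b ≠ 0)
    (e : a = x ^ 2 - b * y ^ 2) : h a b = 1 := by
  by_cases hx : x = 0
  · by_cases hy : y = 0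
    · exact absurd (by rw [e, hx, hy]; ring) ha
    · rw [e, hx, show (0 : k) ^ 2 - b * y ^ 2 = (-b) * y ^ 2 by ring,
        hmul _ _ _ (neg_ne_zero.2 hb) (pow_ne_zero 2 hy) hb, hneg b hb, fm_sq h hmul hy hb,
        one_mul]
  · by_cases hy : y = 0
    · rw [e, hy, show x ^ 2 - b * 0 ^ 2 = x ^ 2 by ring, fm_sq h hmul hx hb]
    · have hyx : y / x ≠ 0 := div_ne_zero hy hx
      set c : k := b * (y / x) ^ 2 with hc
      have hc0 : c ≠ 0 := mul_ne_zero hb (pow_ne_zero 2 hyx)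
      have e2 : a = (1 - c) * x ^ 2 := by
        rw [e, hc]
        field_simp
      have h1c : 1 - c ≠ 0 := by
        intro h0
        rw [h0, zero_mul] at e2
        exact ha e2
      have h3 := hst c hc0 h1c
      rw [hsymm, hc, hmul _ _ _ hb (pow_ne_zero 2 hyx) (hc ▸ h1c), fm_sq h hmul hyx (hc ▸ h1c),
        mul_one, hsymm] at h3
      rw [e2, hmul _ _ _ h1c (pow_ne_zero 2 hx) hb, fm_sq h hmul hx hb, mul_one]
      exact h3

end formal

end Vale.Agent.P017.H335
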